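import Claimed.Agent.R289.Pl.Defs

/-!
# Row 289 (S0537, Cardy for Poisson-Voronoi), box S2, file S2/Gate : LEMMA 2.8 (TWO-SITE GATES)      (owner helper190; prefix `pvg_` / `Pvg`)

TeX: `02-probability.tex`, last lemma (`lemma:two-gates`); consumer: Section 5 (three gates at a pin), Section 3 (gate circuits `S_1, S_2` of a plug).

* sec. 0   `pvg_menger`   VERTEX MENGER for a finite digraph given by its edge set `E : Finset (V × V)`, every `k` (Goering's induction on the edges; lists; no contraction):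
           every separator of `A` from `B` has `≥ k` points  ⟹  `k` pairwise disjoint simple paths from `A` to `B`.   Model free, no planarity, `V` may be infinite.
* sec. 1   `PvgGate T s c I O G X`   a GATE is a FACE SET `G`, `I ⊆ G ⊆ O`, all of whose boundary vertices have a colour `≠ c`, except those of `X`, `X.card ≤ 2`.
           (the paper's "essential simple primal circuit with at most two black vertices" = the boundary of `G`; no circuit is extracted, no winding number is used)
           `pvg_gate`   LEMMA 2.8: three pairwise disjoint crossings of colour `c` of the annulus `O \ I`, or a gate.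
* sec. 2   USE of a gate (here planarity enters, through `pl_int_or`, `pl_int_adj`): a path of colour `c` off `X` stays on its side; a simple cycle of colour `c` which visits both sides
           passes through exactly two points of `X` and splits into an inner and an outer arc (`pvg_pass`).
-/

set_option autoImplicit false

namespace Claimed.Agent.R289

open Relation

/-! ## 0. Vertex MENGER for finite digraphs (Goering's induction on the edges) -/

section menger

variable {V : Type*}

/-- `l` is a walk from `a` to `b` along the directed edges of `E` -/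
def PvgW (E : Finset (V × V)) (a b : V) (l : List V) : Prop :=
  l.IsChain (fun u v => (u, v) ∈ E) ∧ l.head? = some a ∧ l.getLast? = some b

/-- `X` meets every walk from `A` to `B` -/
def PvgSep (E : Finset (V × V)) (A B X : Finset V) : Prop :=
  ∀ a ∈ A, ∀ b ∈ B, ∀ l, PvgW E a b l → ∃ v ∈ l, v ∈ X

/-- `k` pairwise disjoint simple paths from `A` to `B` -/
def PvgConn (E : Finset (V × V)) (A B : Finset V) (k : ℕ) : Prop :=
  ∃ (F : Fin k → List V) (α β : Fin k → V),
    (∀ i, α i ∈ A ∧ β i ∈ B ∧ PvgW E (α i) (β i) (F i) ∧ (F i).Nodup) ∧ ∀ i j, i ≠ j → ∀ v ∈ F i, v ∉ F j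

theorem PvgW.mono {E E' : Finset (V × V)} (h : E ⊆ E') {a b : V} {l : List V} (hl : PvgW E a b l) : PvgW E' a b l :=
  ⟨hl.1.imp fun _ _ huv => h huv, hl.2.1, hl.2.2⟩

theorem PvgW.head_mem {E : Finset (V × V)} {a b : V} {l : List V} (hl : PvgW E a b l) : a ∈ l :=
  List.mem_of_mem_head? (by rw [hl.2.1]; rfl)

theorem PvgW.last_mem {E : Finset (V × V)} {a b : V} {l : List V} (hl : PvgW E a b l) : b ∈ l :=
  List.mem_of_getLast? hl.2.2

theorem PvgW.split {E : Finset (V × V)} {a b z : V} {l₁ l₂ : List V} (hl : PvgW E a b (l₁ ++ z :: l₂)) :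
    PvgW E a z (l₁ ++ [z]) ∧ PvgW E z b (z :: l₂) := by
  obtain ⟨h1, h2, h3⟩ := hl
  rw [List.isChain_split] at h1
  refine ⟨⟨h1.1, ?_, by simp⟩, ⟨h1.2, by simp, ?_⟩⟩
  · cases l₁ <;> simpa using h2
  · rwa [List.getLast?_append_of_ne_nil _ (by simp)] at h3

theorem PvgW.glue {E : Finset (V × V)} {a b z : V} {l₁ l₂ : List V} (h : PvgW E a z (l₁ ++ [z])) (h' : PvgW E z b (z :: l₂)) :
    PvgW E a b (l₁ ++ z :: l₂) := by
  refine ⟨List.isChain_split.2 ⟨h.1, h'.1⟩, ?_, ?_⟩
  · have := h.2.1
    cases l₁ <;> simpa using this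
  · rw [List.getLast?_append_of_ne_nil _ (by simp)]
    exact h'.2.2

theorem pvg_first_hit (P : Finset V) : ∀ l : List V, (∃ v ∈ l, v ∈ P) → ∃ l₁ z l₂, l = l₁ ++ z :: l₂ ∧ z ∈ P ∧ ∀ v ∈ l₁, v ∉ P
  | [], h => by obtain ⟨v, hv, _⟩ := h; simp at hv
  | a :: l, h => by
    by_cases ha : a ∈ P
    · exact ⟨[], a, l, rfl, ha, by simp⟩
    · obtain ⟨l₁, z, l₂, h1, h2, h3⟩ := pvg_first_hit P l (by
        obtain ⟨v, hv, hvP⟩ := h
        rcases List.mem_cons.1 hv with rfl | hv
        · exact absurd hvP ha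
        · exact ⟨v, hv, hvP⟩)
      refine ⟨a :: l₁, z, l₂, by rw [h1]; rfl, h2, ?_⟩
      intro v hv
      rcases List.mem_cons.1 hv with rfl | hv
      · exact ha
      · exact h3 v hv

theorem pvg_last_hit (P : Finset V) (l : List V) (h : ∃ v ∈ l, v ∈ P) : ∃ l₁ z l₂, l = l₁ ++ z :: l₂ ∧ z ∈ P ∧ ∀ v ∈ l₂, v ∉ P := by
  obtain ⟨l₁, z, l₂, h1, h2, h3⟩ := pvg_first_hit P l.reverse (by simpa using h)
  refine ⟨l₂.reverse, z, l₁.reverse, ?_, h2, by simpa using h3⟩
  have := congrArg List.reverse h1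
  simpa using this

/-- a chain whose non-final vertices avoid `x` does not use an edge `(x, y)` -/
theorem pvg_chain_pre {R S : V → V → Prop} : ∀ (l₁ : List V) (z : V), (l₁ ++ [z]).IsChain R → (∀ u ∈ l₁, ∀ v, R u v → S u v) → (l₁ ++ [z]).IsChain S
  | [], z, _, _ => by simp
  | a :: l₁, z, h, H => by
    rw [List.cons_append, List.isChain_cons] at h ⊢
    exact ⟨fun y hy => H a (by simp) y (h.1 y hy), pvg_chain_pre l₁ z h.2 fun u hu => H u (List.mem_cons_of_mem _ hu)⟩

/-- a chain whose non-initial vertices avoid `y` does not use an edge `(x, y)` -/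
theorem pvg_chain_suf {R S : V → V → Prop} {l : List V} (h : l.IsChain R) (H : ∀ u, ∀ v ∈ l.tail, R u v → S u v) : l.IsChain S :=
  h.imp_of_mem_tail_imp fun u v _ hv huv => H u v hv huv

theorem pvg_sep_empty (A B : Finset V) [DecidableEq V] : PvgSep ∅ A B (A ∩ B) := by
  intro a ha b hb l hl
  obtain ⟨h1, h2, h3⟩ := hl
  match l, h1, h2, h3 with
  | [], _, h2, _ => simp at h2
  | [c], _, h2, h3 =>
    simp only [List.head?_cons, Option.some.injEq] at h2
    simp only [List.getLast?_singleton, Option.some.injEq] at h3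
    subst h2
    subst h3
    exact ⟨c, by simp, Finset.mem_inter.2 ⟨ha, hb⟩⟩
  | c :: d :: l, h1, _, _ =>
    rw [List.isChain_cons_cons] at h1
    simp at h1

theorem pvg_conn_mono {E E' : Finset (V × V)} (h : E ⊆ E') {A B : Finset V} {k : ℕ} (hc : PvgConn E A B k) : PvgConn E' A B k := by
  obtain ⟨F, α, β, h1, h2⟩ := hc
  exact ⟨F, α, β, fun i => ⟨(h1 i).1, (h1 i).2.1, (h1 i).2.2.1.mono h, (h1 i).2.2.2⟩, h2⟩

/-- an injective family of `k` points of a set with `k` elements exhausts it -/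
theorem pvg_surj {k : ℕ} {P : Finset V} (f : Fin k → V) (hf : Function.Injective f) (hP : ∀ i, f i ∈ P) (hk : P.card = k) :
    ∀ v ∈ P, ∃ i, f i = v := by
  classical
  have h1 : Finset.univ.image f = P := by
    apply Finset.eq_of_subset_of_card_le
    · intro v hv
      obtain ⟨i, _, rfl⟩ := Finset.mem_image.1 hv
      exact hP i
    · rw [Finset.card_image_of_injective _ hf, hk]; simp
  intro v hv
  rw [← h1] at hv
  obtain ⟨i, _, hi⟩ := Finset.mem_image.1 hv
  exact ⟨i, hi⟩

/-- the combination step of Goering's proof -/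
theorem pvg_combine [DecidableEq V] {E : Finset (V × V)} {x y : V} (hxy : (x, y) ∈ E) {A B S : Finset V} {k : ℕ}
    (hS : PvgSep (E.erase (x, y)) A B S) (hx : x ∉ S) (hy : y ∉ S) (hk : S.card + 1 = k)
    (h1 : PvgConn (E.erase (x, y)) A (insert x S) k) (h2 : PvgConn (E.erase (x, y)) (insert y S) B k) : PvgConn E A B k := by
  obtain ⟨F, α, β, hF, hFd⟩ := h1
  obtain ⟨F', α', β', hF', hFd'⟩ := h2
  have hsub : E.erase (x, y) ⊆ E := Finset.erase_subset _ _
  have hβmem : ∀ i, β i ∈ F i := fun i => (hF i).2.2.1.last_mem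
  have hαmem : ∀ j, α' j ∈ F' j := fun j => (hF' j).2.2.1.head_mem
  have hβinj : Function.Injective β := by
    intro i j hij
    by_contra hne
    exact hFd i j hne (β i) (hβmem i) (hij ▸ hβmem j)
  have hαinj : Function.Injective α' := by
    intro i j hij
    by_contra hne
    exact hFd' i j hne (α' i) (hαmem i) (hij ▸ hαmem j)
  have hβsur := pvg_surj β hβinj (fun i => (hF i).2.1) (by rw [Finset.card_insert_of_notMem hx, hk])
  have hαsur := pvg_surj α' hαinj (fun j => (hF' j).1) (by rw [Finset.card_insert_of_notMem hy, hk])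
  -- the only point of `P` on `F i` is its end, the only point of `Q` on `F' j` is its start
  have hPu : ∀ i, ∀ v ∈ F i, v ∈ insert x S → v = β i := by
    intro i v hv hvP
    obtain ⟨j, rfl⟩ := hβsur v hvP
    by_contra hne
    have hij : i ≠ j := fun h => hne (by rw [h])
    exact hFd i j hij _ hv (hβmem j)
  have hQu : ∀ j, ∀ v ∈ F' j, v ∈ insert y S → v = α' j := by
    intro j v hv hvQ
    obtain ⟨i, rfl⟩ := hαsur v hvQ
    by_contra hne
    have hij : j ≠ i := fun h => hne (by rw [h])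
    exact hFd' j i hij _ hv (hαmem i)
  -- the two systems meet in `S` only, at matching ends
  have key : ∀ i j, ∀ z ∈ F i, z ∈ F' j → z ∈ S ∧ z = β i ∧ z = α' j := by
    intro i j z hz hz'
    obtain ⟨l₁, l₂, e1⟩ := List.append_of_mem hz
    obtain ⟨m₁, m₂, e2⟩ := List.append_of_mem hz'
    have w1 := (hF i).2.2.1
    have w2 := (hF' j).2.2.1
    have n1 := (hF i).2.2.2
    have n2 := (hF' j).2.2.2
    rw [e1] at w1 n1
    rw [e2] at w2 n2
    obtain ⟨v, hv, hvS⟩ := hS _ (hF i).1 _ (hF' j).2.1 _ (w1.split.1.glue w2.split.2)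
    have hzS : z ∈ S := by
      rcases List.mem_append.1 hv with hv1 | hv1
      · -- `v` lies before `z` on `F i`
        have h3 : v = β i := hPu i v (by rw [e1]; exact List.mem_append_left _ hv1) (Finset.mem_insert_of_mem hvS)
        have h4 := w1.2.2
        rw [List.getLast?_append_of_ne_nil _ (by simp)] at h4
        have h5 : β i ∈ z :: l₂ := List.mem_of_getLast? h4
        exact absurd h5 (h3 ▸ (List.disjoint_of_nodup_append n1 hv1))
      · rcases List.mem_cons.1 hv1 with rfl | hv2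
        · exact hvS
        · -- `v` lies after `z` on `F' j`
          have h3 : v = α' j := hQu j v (by rw [e2]; exact List.mem_append_right _ (List.mem_cons_of_mem _ hv2)) (Finset.mem_insert_of_mem hvS)
          have h4 := w2.2.1
          cases m₁ with
          | nil =>
            simp only [List.nil_append, List.head?_cons, Option.some.injEq] at h4
            rw [List.nil_append, List.nodup_cons] at n2
            exact absurd (h4 ▸ h3 ▸ hv2) n2.1
          | cons c m₁ =>
            simp only [List.cons_append, List.head?_cons, Option.some.injEq] at h4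
            have h5 : v ∈ c :: m₁ := by rw [h3, ← h4]; simp
            exact absurd (List.mem_cons_of_mem _ hv2) (List.disjoint_of_nodup_append n2 h5)
    exact ⟨hzS, hPu i z hz (Finset.mem_insert_of_mem hzS), hQu j z hz' (Finset.mem_insert_of_mem hzS)⟩
  -- the matching
  have hm : ∀ i, ∃ j, α' j = if β i = x then y else β i := by
    intro i
    apply hαsur
    split_ifs with h
    · exact Finset.mem_insert_self _ _
    · rcases Finset.mem_insert.1 (hF i).2.1 with h' | h'
      · exact absurd h' h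
      · exact Finset.mem_insert_of_mem h'
  choose J hJ using hm
  have hJinj : Function.Injective J := by
    intro i i' h
    have e := hJ i
    rw [h, hJ i'] at e
    apply hβinj
    have hS' : ∀ i, β i ≠ x → β i ∈ S := fun i hi => (Finset.mem_insert.1 (hF i).2.1).resolve_left hi
    split_ifs at e with a1 a2 a2
    · rw [a1, a2]
    · exact absurd (e ▸ hS' i a2) hy
    · exact absurd (e ▸ hS' i' a1) hy
    · exact e.symm
  have hmemG : ∀ i, ∀ v ∈ (if β i = x then F i ++ F' (J i) else (F i).dropLast ++ F' (J i)), v ∈ F i ∨ v ∈ F' (J i) := by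
    intro i v hv
    split_ifs at hv with h
    · exact List.mem_append.1 hv
    · exact (List.mem_append.1 hv).imp_left fun h => List.mem_of_mem_dropLast h
  refine ⟨fun i => if β i = x then F i ++ F' (J i) else (F i).dropLast ++ F' (J i), α, fun i => β' (J i), fun i => ⟨(hF i).1, (hF' (J i)).2.1, ?_, ?_⟩, ?_⟩
  · -- walk
    have w1 := (hF i).2.2.1.mono hsub
    have w2 := (hF' (J i)).2.2.1.mono hsub
    have hne2 : F' (J i) ≠ [] := List.ne_nil_of_mem (hαmem _)
    have hne1 : F i ≠ [] := List.ne_nil_of_mem (hβmem _)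
    by_cases h : β i = x
    · simp only [if_pos h]
      have hj := hJ i
      rw [if_pos h] at hj
      refine ⟨w1.1.append w2.1 ?_, ?_, ?_⟩
      · intro u hu v hv
        rw [w1.2.2, h] at hu
        rw [w2.2.1, hj] at hv
        cases hu
        cases hv
        exact hxy
      · rw [List.head?_append_of_ne_nil _ hne1]; exact w1.2.1
      · rw [List.getLast?_append_of_ne_nil _ hne2]; exact w2.2.2
    · simp only [if_neg h]
      have hj := hJ i
      rw [if_neg h] at hj
      have e1 : (F i).dropLast ++ [β i] = F i := List.dropLast_append_getLast? _ (by rw [w1.2.2]; rfl)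
      obtain ⟨t, e2⟩ : ∃ t, F' (J i) = β i :: t := by
        have := w2.2.1
        cases hF2 : F' (J i) with
        | nil => exact absurd hF2 hne2
        | cons c t =>
          rw [hF2] at this
          simp only [List.head?_cons, Option.some.injEq] at this
          exact ⟨t, by rw [this, hj]⟩
      rw [e2]
      rw [← e1] at w1
      rw [e2, hj] at w2
      exact w1.glue w2
  · -- simple
    by_cases h : β i = x
    · simp only [if_pos h]
      refine List.Nodup.append (hF i).2.2.2 (hF' (J i)).2.2.2 ?_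
      intro z hz hz'
      obtain ⟨a1, a2, _⟩ := key i (J i) z hz hz'
      exact hx (h ▸ a2 ▸ a1)
    · simp only [if_neg h]
      have e1 : (F i).dropLast ++ [β i] = F i := List.dropLast_append_getLast? _ (by rw [(hF i).2.2.1.2.2]; rfl)
      have n1 := (hF i).2.2.2
      rw [← e1] at n1
      refine List.Nodup.append n1.of_append_left (hF' (J i)).2.2.2 ?_
      intro z hz hz'
      obtain ⟨_, a2, _⟩ := key i (J i) z (List.mem_of_mem_dropLast hz) hz'
      exact List.disjoint_of_nodup_append n1 hz (by rw [a2]; simp)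
  · -- pairwise disjoint
    intro i i' hne v hv hv'
    have hcross : ∀ i i', i ≠ i' → ∀ v ∈ F i, v ∉ F' (J i') := by
      intro i i' hne v hv hv'
      obtain ⟨a1, a2, a3⟩ := key i (J i') v hv hv'
      rw [hJ i'] at a3
      split_ifs at a3 with h
      · exact hy (a3 ▸ a1)
      · exact hne (hβinj (a2.symm.trans a3))
    rcases hmemG i v hv with h1 | h1 <;> rcases hmemG i' v hv' with h2 | h2
    · exact hFd i i' hne v h1 h2
    · exact hcross i i' hne v h1 h2
    · exact hcross i' i hne.symm v h2 h1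
    · exact hFd' (J i) (J i') (fun h => hne (hJinj h)) v h1 h2

/-- **MENGER** (vertex form, finite digraph given by its edge set): if every set which meets all the walks from `A` to `B` has at least `k` elements, there are `k` pairwise disjoint simple paths from `A` to `B` -/
theorem pvg_menger (E : Finset (V × V)) (A B : Finset V) (k : ℕ) (h : ∀ X, PvgSep E A B X → k ≤ X.card) : PvgConn E A B k := by
  classical
  induction hn : E.card generalizing E A B k with
  | zero =>
    rw [Finset.card_eq_zero] at hn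
    subst hn
    have h1 := h _ (pvg_sep_empty A B)
    obtain ⟨t, ht, htk⟩ := Finset.exists_subset_card_eq h1
    let f := (t.equivFinOfCardEq htk).symm
    refine ⟨fun i => [(f i : V)], fun i => f i, fun i => f i, fun i => ⟨?_, ?_, ⟨by simp, by simp, by simp⟩, by simp⟩, ?_⟩
    · exact (Finset.mem_inter.1 (ht (f i).2)).1
    · exact (Finset.mem_inter.1 (ht (f i).2)).2
    · intro i j hij v hv hv'
      simp only [List.mem_singleton] at hv hv'
      exact hij (f.injective (Subtype.ext (hv.symm.trans hv')))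
  | succ n ih =>
    obtain ⟨⟨x, y⟩, hxy⟩ : E.Nonempty := Finset.card_pos.1 (by omega)
    have hcard : (E.erase (x, y)).card = n := by rw [Finset.card_erase_of_mem hxy]; omega
    have hsub : E.erase (x, y) ⊆ E := Finset.erase_subset _ _
    by_cases hall : ∀ X, PvgSep (E.erase (x, y)) A B X → k ≤ X.card
    · exact pvg_conn_mono hsub (ih _ A B k hall hcard)
    · push Not at hall
      obtain ⟨S, hS, hSk⟩ := hall
      -- walks of `E` which avoid `x` (or `y`) are walks of `E.erase (x, y)`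
      have hP : PvgSep E A B (insert x S) := by
        intro a ha b hb l hl
        by_cases hx : x ∈ l
        · exact ⟨x, hx, Finset.mem_insert_self _ _⟩
        · obtain ⟨v, hv, hvS⟩ := hS a ha b hb l ⟨hl.1.imp_of_mem_imp fun u v hu _ huv =>
            Finset.mem_erase.2 ⟨fun e => hx (by cases e; exact hu), huv⟩, hl.2.1, hl.2.2⟩
          exact ⟨v, hv, Finset.mem_insert_of_mem hvS⟩
      have hQ : PvgSep E A B (insert y S) := by
        intro a ha b hb l hl
        by_cases hy : y ∈ l
        · exact ⟨y, hy, Finset.mem_insert_self _ _⟩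
        · obtain ⟨v, hv, hvS⟩ := hS a ha b hb l ⟨hl.1.imp_of_mem_imp fun u v _ hv huv =>
            Finset.mem_erase.2 ⟨fun e => hy (by cases e; exact hv), huv⟩, hl.2.1, hl.2.2⟩
          exact ⟨v, hv, Finset.mem_insert_of_mem hvS⟩
      have c1 := h _ hP
      have c2 := h _ hQ
      have hx : x ∉ S := fun hx => by rw [Finset.insert_eq_of_mem hx] at c1; omega
      have hy : y ∉ S := fun hy => by rw [Finset.insert_eq_of_mem hy] at c2; omega
      rw [Finset.card_insert_of_notMem hx] at c1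
      have hk : S.card + 1 = k := by omega
      have hAP : ∀ X, PvgSep (E.erase (x, y)) A (insert x S) X → k ≤ X.card := by
        intro X hX
        apply h
        intro a ha b hb l hl
        obtain ⟨l₁, z, l₂, e, hz, hl₁⟩ := pvg_first_hit (insert x S) l (hP a ha b hb l hl)
        subst e
        have w := hl.split.1
        obtain ⟨v, hv, hvX⟩ := hX a ha z hz (l₁ ++ [z]) ⟨pvg_chain_pre l₁ z w.1 fun u hu v huv =>
          Finset.mem_erase.2 ⟨fun e => hl₁ u hu (by cases e; exact Finset.mem_insert_self _ _), huv⟩, w.2.1, w.2.2⟩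
        refine ⟨v, ?_, hvX⟩
        rcases List.mem_append.1 hv with hv | hv
        · exact List.mem_append_left _ hv
        · rw [List.mem_singleton] at hv
          subst hv
          simp
      have hQB : ∀ X, PvgSep (E.erase (x, y)) (insert y S) B X → k ≤ X.card := by
        intro X hX
        apply h
        intro a ha b hb l hl
        obtain ⟨l₁, z, l₂, e, hz, hl₂⟩ := pvg_last_hit (insert y S) l (hQ a ha b hb l hl)
        subst e
        have w := hl.split.2
        obtain ⟨v, hv, hvX⟩ := hX z hz b hb (z :: l₂) ⟨pvg_chain_suf w.1 fun u v hv huv =>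
          Finset.mem_erase.2 ⟨fun e => hl₂ v hv (by cases e; exact Finset.mem_insert_self _ _), huv⟩, w.2.1, w.2.2⟩
        exact ⟨v, List.mem_append_right _ hv, hvX⟩
      exact pvg_combine hxy hS hx hy hk (ih _ _ _ k hAP hcard) (ih _ _ _ k hQB hcard)

end menger

/-! ## 1. Gates      (paper: Lemma 2.8; a gate is a FACE SET between the inner and the outer disc whose boundary vertices have the other colour, up to two exceptions) -/

section gate

variable {V D : Type} (T : PvMap V D)

/-- the vertices of the boundary edges of a face set -/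
def PvMap.BdV (A : Set D) : Set V := {v | ∃ d, T.src d = v ∧ T.Bd A d}

/-- a crossing of colour `c` of the annulus `O \ I`: a simple path of edges of faces of `O \ I` from the boundary of `I` to the boundary of `O` -/
def PvgCross (s : V → Bool) (c : Bool) (I O : Set D) (l : List V) : Prop :=
  l.IsChain (T.EdgeIn (O \ I)) ∧ (∀ v ∈ l, s v = c) ∧ l.Nodup ∧ (∃ a ∈ T.BdV I, l.head? = some a) ∧ ∃ b ∈ T.BdV O, l.getLast? = some b

/-- **gate** for the colour `c` in the annulus `O \ I`, with exceptional set `X` -/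
structure PvgGate (s : V → Bool) (c : Bool) (I O G : Set D) (X : Finset V) : Prop where
  face : T.FaceSet G
  inner : I ⊆ G
  outer : G ⊆ O
  card : X.card ≤ 2
  col : ∀ v ∈ X, s v = c
  other : ∀ v ∈ T.BdV G, s v ≠ c ∨ v ∈ X

variable {T}

theorem pvg_bdV_tgt {A : Set D} {d : D} (h : T.Bd A d) : T.tgt d ∈ T.BdV A :=
  ⟨T.opp d, T.src_opp' d, T.bd_opp.2 h⟩

theorem pvg_bdV_src {A : Set D} {d : D} (h : T.Bd A d) : T.src d ∈ T.BdV A := ⟨d, rfl, h⟩

/-- two vertices of a face of `R` are equal or joined by an edge of a face of `R` -/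
theorem pvg_face_edge {R : Set D} (hR : T.FaceSet R) {e : D} (he : e ∈ R) {u v : V} (hu : u = T.src e ∨ u = T.tgt e ∨ u = T.apex e)
    (hv : v = T.src e ∨ v = T.tgt e ∨ v = T.apex e) : u = v ∨ T.EdgeIn R u v := by
  have h1 : T.nxt e ∈ R := (hR e).2 he
  have h2 : T.nxt (T.nxt e) ∈ R := (hR _).2 h1
  rcases hu with rfl | rfl | rfl <;> rcases hv with rfl | rfl | rfl
  · exact Or.inl rfl
  · exact Or.inr ⟨e, Or.inl he, rfl, rfl⟩
  · exact Or.inr ⟨T.opp (T.nxt (T.nxt e)), Or.inr (by rwa [T.opp_opp]), by rw [T.src_opp', T.tgt_nxt2], by rw [T.tgt_opp, T.src_nxt2]⟩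
  · exact Or.inr ⟨T.opp e, Or.inr (by rwa [T.opp_opp]), T.src_opp' e, T.tgt_opp e⟩
  · exact Or.inl rfl
  · exact Or.inr ⟨T.nxt e, Or.inl h1, rfl, T.tgt_nxt e⟩
  · exact Or.inr ⟨T.nxt (T.nxt e), Or.inl h2, rfl, T.tgt_nxt2 e⟩
  · exact Or.inr ⟨T.opp (T.nxt e), Or.inr (by rwa [T.opp_opp]), by rw [T.src_opp', T.tgt_nxt], by rw [T.tgt_opp, T.src_nxt]⟩
  · exact Or.inl rfl

theorem pvg_chain_tail {P : V → Prop} : ∀ (t : List V) (a : V), (a :: t).IsChain (fun _ v => P v) → ∀ v ∈ t, P v
  | [], _, _, v, hv => by simp at hv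
  | b :: t, a, h, v, hv => by
    rw [List.isChain_cons_cons] at h
    rcases List.mem_cons.1 hv with rfl | hv
    · exact h.1
    · exact pvg_chain_tail t b h.2 v hv

/-- **LEMMA 2.8** (two-site gates): three pairwise disjoint crossings of colour `c`, or a gate.   No planarity is used here: it enters when a gate is USED (`pl_int_sep`). -/
theorem pvg_gate (s : V → Bool) (c : Bool) {I O : Set D} (hI : T.FaceSet I) (hO : T.FaceSet O) (hIO : I ⊆ O) (hsep : ∀ d ∈ I, T.opp d ∈ O)
    (hfin : (O \ I).Finite) :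
    (∃ F : Fin 3 → List V, (∀ i, PvgCross T s c I O (F i)) ∧ ∀ i j, i ≠ j → ∀ v ∈ F i, v ∉ F j) ∨ ∃ G X, PvgGate T s c I O G X := by
  classical
  set W : Finset V := (hfin.image T.src).toFinset with hW
  have hWmem : ∀ d, d ∈ O \ I → T.src d ∈ W := fun d hd => by
    rw [hW, Set.Finite.mem_toFinset]; exact ⟨d, hd, rfl⟩
  have hR : T.FaceSet (O \ I) := fun d => by
    simp only [Set.mem_sdiff]; rw [hO d, hI d]
  have hWtgt : ∀ d, d ∈ O \ I → T.tgt d ∈ W := fun d hd => hWmem _ ((hR d).2 hd)
  have hWedge : ∀ u v, T.EdgeIn (O \ I) u v → u ∈ W ∧ v ∈ W := by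
    rintro u v ⟨d, hd | hd, rfl, rfl⟩
    · exact ⟨hWmem d hd, hWtgt d hd⟩
    · exact ⟨by rw [← T.tgt_opp]; exact hWtgt _ hd, by rw [← T.src_opp']; exact hWmem _ hd⟩
  set E : Finset (V × V) := (W ×ˢ W).filter fun p => T.EdgeIn (O \ I) p.1 p.2 ∧ s p.1 = c ∧ s p.2 = c with hE
  have hEmem : ∀ u v, (u, v) ∈ E ↔ T.EdgeIn (O \ I) u v ∧ s u = c ∧ s v = c := by
    intro u v
    rw [hE, Finset.mem_filter, Finset.mem_product]
    exact ⟨fun h => h.2, fun h => ⟨hWedge u v h.1, h⟩⟩
  set A : Finset V := W.filter fun v => v ∈ T.BdV I ∧ s v = c with hA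
  set B : Finset V := W.filter fun v => v ∈ T.BdV O ∧ s v = c with hB
  -- a boundary edge of `I` (of `O`) is an edge of a face of the annulus
  have hbI : ∀ d, T.Bd I d → d ∈ O \ I ∨ T.opp d ∈ O \ I := by
    intro d hd
    unfold PvMap.Bd at hd
    by_cases h1 : d ∈ I
    · have h2 : T.opp d ∉ I := fun h2 => hd ⟨fun _ => h2, fun _ => h1⟩
      exact Or.inr ⟨hsep d h1, h2⟩
    · have h2 : T.opp d ∈ I := by by_contra h2; exact hd ⟨fun h => absurd h h1, fun h => absurd h h2⟩
      have := hsep _ h2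
      rw [T.opp_opp] at this
      exact Or.inl ⟨this, h1⟩
  have hbO : ∀ d, T.Bd O d → d ∈ O \ I ∨ T.opp d ∈ O \ I := by
    intro d hd
    unfold PvMap.Bd at hd
    by_cases h1 : d ∈ O
    · have h2 : T.opp d ∉ O := fun h2 => hd ⟨fun _ => h2, fun _ => h1⟩
      exact Or.inl ⟨h1, fun h3 => h2 (hsep d h3)⟩
    · have h2 : T.opp d ∈ O := by by_contra h2; exact hd ⟨fun h => absurd h h1, fun h => absurd h h2⟩
      refine Or.inr ⟨h2, fun h3 => h1 ?_⟩
      have := hsep _ h3
      rwa [T.opp_opp] at this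
  have hsrcW : ∀ d, (d ∈ O \ I ∨ T.opp d ∈ O \ I) → T.src d ∈ W := by
    rintro d (hd | hd)
    · exact hWmem d hd
    · rw [← T.tgt_opp]; exact hWtgt _ hd
  have hAmem : ∀ v, v ∈ A ↔ v ∈ T.BdV I ∧ s v = c := by
    intro v
    rw [hA, Finset.mem_filter]
    refine ⟨fun h => h.2, fun h => ⟨?_, h⟩⟩
    obtain ⟨d, rfl, hd⟩ := h.1
    exact hsrcW d (hbI d hd)
  have hBmem : ∀ v, v ∈ B ↔ v ∈ T.BdV O ∧ s v = c := by
    intro v
    rw [hB, Finset.mem_filter]
    refine ⟨fun h => h.2, fun h => ⟨?_, h⟩⟩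
    obtain ⟨d, rfl, hd⟩ := h.1
    exact hsrcW d (hbO d hd)
  have hwc : ∀ a ∈ A, ∀ v l, PvgW E a v l → ∀ u ∈ l, s u = c := by
    intro a ha v l hl u hu
    have hc := hl.1
    have hh := hl.2.1
    cases l with
    | nil => simp at hu
    | cons a' t =>
      simp only [List.head?_cons, Option.some.injEq] at hh
      subst hh
      rcases List.mem_cons.1 hu with rfl | hu
      · exact ((hAmem _).1 ha).2
      · exact pvg_chain_tail (P := fun v => s v = c) t a' (hc.imp fun u v huv => ((hEmem u v).1 huv).2.2) u hu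
  by_cases hall : ∀ X, PvgSep E A B X → 3 ≤ X.card
  · left
    obtain ⟨F, α, β, h1, h2⟩ := pvg_menger E A B 3 hall
    refine ⟨F, fun i => ?_, h2⟩
    obtain ⟨a1, a2, a3, a4⟩ := h1 i
    exact ⟨a3.1.imp fun u v huv => ((hEmem u v).1 huv).1, hwc _ a1 _ _ a3, a4, ⟨α i, ((hAmem _).1 a1).1, a3.2.1⟩, ⟨β i, ((hBmem _).1 a2).1, a3.2.2⟩⟩
  · right
    push Not at hall
    obtain ⟨X₀, hX₀, hcard⟩ := hall
    -- only the points of colour `c` of the separator matter
    set X : Finset V := X₀.filter fun v => s v = c with hXdef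
    have hXc : ∀ v ∈ X, s v = c := fun v hv => (Finset.mem_filter.1 hv).2
    have hXcard : X.card ≤ 2 := (Finset.card_filter_le _ _).trans (by omega)
    -- `K` = the points reached from `A` off `X`
    set K : Set V := {v | ∃ a ∈ A, ∃ l, PvgW E a v l ∧ ∀ u ∈ l, u ∉ X} with hK
    have hKA : ∀ a ∈ A, a ∉ X → a ∈ K := fun a ha hx => ⟨a, ha, [a], ⟨by simp, by simp, by simp⟩, by simpa using hx⟩
    have hKstep : ∀ u ∈ K, ∀ v, (u, v) ∈ E → v ∉ X → v ∈ K := by
      rintro u ⟨a, ha, l, hl, hlX⟩ v huv hv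
      refine ⟨a, ha, l ++ [v], ⟨hl.1.append (by simp) ?_, ?_, by simp⟩, ?_⟩
      · intro p hp q hq
        rw [hl.2.2] at hp
        cases hp
        simp only [List.head?_cons, Option.mem_def, Option.some.injEq] at hq
        subst hq
        exact huv
      · rw [List.head?_append_of_ne_nil _ (List.ne_nil_of_mem hl.head_mem)]; exact hl.2.1
      · intro w hw
        rcases List.mem_append.1 hw with hw | hw
        · exact hlX w hw
        · rw [List.mem_singleton] at hw; subst hw; exact hv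
    have hKc : ∀ v ∈ K, s v = c := by
      rintro v ⟨a, ha, l, hl, -⟩
      exact hwc a ha v l hl v hl.last_mem
    have hKB : ∀ v ∈ K, v ∉ B := by
      rintro v ⟨a, ha, l, hl, hlX⟩ hv
      obtain ⟨w, hw, hwX⟩ := hX₀ a ha v hv l hl
      exact hlX w hw (Finset.mem_filter.2 ⟨hwX, hwc a ha v l hl w hw⟩)
    refine ⟨I ∪ {d | d ∈ O \ I ∧ (T.src d ∈ K ∨ T.tgt d ∈ K ∨ T.apex d ∈ K)}, X, ?_, Set.subset_union_left, ?_, hXcard, hXc, ?_⟩
    · intro d
      simp only [Set.mem_union, Set.mem_ofPred_eq]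
      rw [hI d, hR d, T.src_nxt, T.tgt_nxt, T.apex_nxt]
      tauto
    · rintro d (hd | hd)
      · exact hIO hd
      · exact hd.1.1
    · -- the boundary vertices
      have main : ∀ e, e ∈ I ∪ {d | d ∈ O \ I ∧ (T.src d ∈ K ∨ T.tgt d ∈ K ∨ T.apex d ∈ K)} →
          T.opp e ∉ I ∪ {d | d ∈ O \ I ∧ (T.src d ∈ K ∨ T.tgt d ∈ K ∨ T.apex d ∈ K)} → ∀ v, v = T.src e ∨ v = T.tgt e → s v ≠ c ∨ v ∈ X := by
        intro e he hoe v hv
        by_contra hcon
        push Not at hcon
        obtain ⟨hvc, hvX⟩ := hcon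
        have hoI : T.opp e ∉ I := fun h => hoe (Or.inl h)
        have hvo : T.src (T.opp e) = v ∨ T.tgt (T.opp e) = v := by
          rw [T.src_opp', T.tgt_opp]
          rcases hv with rfl | rfl
          · exact Or.inr rfl
          · exact Or.inl rfl
        -- `v ∈ K`
        have hvK : v ∈ K := by
          rcases he with he | ⟨he, hk⟩
          · have hbd : T.Bd I e := fun h => hoI (h.1 he)
            refine hKA v ((hAmem v).2 ⟨?_, hvc⟩) hvX
            rcases hv with rfl | rfl
            · exact pvg_bdV_src hbd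
            · exact pvg_bdV_tgt hbd
          · obtain ⟨κ, hκ, hκK⟩ : ∃ κ, (κ = T.src e ∨ κ = T.tgt e ∨ κ = T.apex e) ∧ κ ∈ K := by
              rcases hk with h | h | h
              · exact ⟨_, Or.inl rfl, h⟩
              · exact ⟨_, Or.inr (Or.inl rfl), h⟩
              · exact ⟨_, Or.inr (Or.inr rfl), h⟩
            rcases pvg_face_edge hR he hκ (hv.imp_right Or.inl) with rfl | hedge
            · exact hκK
            · exact hKstep κ hκK v ((hEmem κ v).2 ⟨hedge, hKc κ hκK, hvc⟩) hvX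
        by_cases hoO : T.opp e ∈ O
        · refine hoe (Or.inr ⟨⟨hoO, hoI⟩, ?_⟩)
          rcases hvo with h | h
          · exact Or.inl (h ▸ hvK)
          · exact Or.inr (Or.inl (h ▸ hvK))
        · have heO : e ∈ O := by
            rcases he with he | he
            · exact hIO he
            · exact he.1.1
          have hbd : T.Bd O e := fun h => hoO (h.1 heO)
          refine hKB v hvK ((hBmem v).2 ⟨?_, hvc⟩)
          rcases hv with rfl | rfl
          · exact pvg_bdV_src hbd
          · exact pvg_bdV_tgt hbd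
      rintro v ⟨d, rfl, hd⟩
      by_cases h1 : d ∈ I ∪ {d | d ∈ O \ I ∧ (T.src d ∈ K ∨ T.tgt d ∈ K ∨ T.apex d ∈ K)}
      · exact main d h1 (fun h2 => hd ⟨fun _ => h2, fun _ => h1⟩) _ (Or.inl rfl)
      · have h2 : T.opp d ∈ I ∪ {d | d ∈ O \ I ∧ (T.src d ∈ K ∨ T.tgt d ∈ K ∨ T.apex d ∈ K)} := by
          by_contra h2
          exact hd ⟨fun h => absurd h h1, fun h => absurd h h2⟩
        exact main (T.opp d) h2 (by rwa [T.opp_opp]) _ (Or.inr (T.tgt_opp d).symm)

end gate

/-! ## 2. Use of a gate -/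

section use

variable {V D : Type} {T : PvMap V D} {s : V → Bool} {c : Bool} {I O G : Set D} {X : Finset V}

/-- a vertex of colour `c` off `X` meets no boundary edge of the gate -/
theorem PvgGate.off (hg : PvgGate T s c I O G X) {v : V} (hc : s v = c) (hX : v ∉ X) : ∀ d, T.src d = v → ¬ T.Bd G d :=
  fun d hd hb => (hg.other v ⟨d, hd, hb⟩).elim (fun h => h hc) hX

/-- a vertex of colour `c` off `X` is interior to the gate or to its complement -/
theorem PvgGate.int_or (hT : T.IsSph) (hg : PvgGate T s c I O G X) {v : V} (hc : s v = c) (hX : v ∉ X) : v ∈ T.Int G ∨ v ∈ T.Int Gᶜ :=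
  pl_int_or hT hg.face (hg.off hc hX)

theorem PvgGate.step_in (hT : T.IsSph) (hg : PvgGate T s c I O G X) {u v : V} (hu : u ∈ T.Int G) (huv : T.Adj u v) (hc : s v = c) (hX : v ∉ X) :
    v ∈ T.Int G := pl_int_adj hT hg.face hu huv (hg.off hc hX)

theorem PvgGate.step_out (hT : T.IsSph) (hg : PvgGate T s c I O G X) {u v : V} (hu : u ∈ T.Int Gᶜ) (huv : T.Adj u v) (hc : s v = c) (hX : v ∉ X) :
    v ∈ T.Int Gᶜ :=
  pl_int_adj hT (hg.face.compl T) hu huv fun d hd hb => hg.off hc hX d hd (T.bd_compl.1 hb)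

/-- a path of colour `c` off `X` which starts inside the gate stays inside -/
theorem PvgGate.path_in (hT : T.IsSph) (hg : PvgGate T s c I O G X) {a b : V} (ha : a ∈ T.Int G)
    (h : ReflTransGen (fun u v => T.Adj u v ∧ s v = c ∧ v ∉ X) a b) : b ∈ T.Int G := by
  induction h with
  | refl => exact ha
  | tail _ hbc ih => exact hg.step_in hT ih hbc.1 hbc.2.1 hbc.2.2

theorem PvgGate.path_out (hT : T.IsSph) (hg : PvgGate T s c I O G X) {a b : V} (ha : a ∈ T.Int Gᶜ)
    (h : ReflTransGen (fun u v => T.Adj u v ∧ s v = c ∧ v ∉ X) a b) : b ∈ T.Int Gᶜ := by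
  induction h with
  | refl => exact ha
  | tail _ hbc ih => exact hg.step_out hT ih hbc.1 hbc.2.1 hbc.2.2

theorem pvg_int_disj {A : Set D} {d : D} (h : T.src d ∈ T.Int A) : T.src d ∉ T.Int Aᶜ := fun h' => h' d rfl (h d rfl)

theorem pvg_cyc_adj (γ : T.Cyc) (k : ℕ) : T.Adj (T.src (γ.e k)) (T.src (γ.e (k + 1))) := ⟨γ.e k, rfl, γ.chain k⟩

theorem pvg_cyc_per (γ : T.Cyc) (k m : ℕ) : γ.e (k + m * γ.n) = γ.e k := by
  induction m with
  | zero => simp
  | succ m ih => rw [Nat.succ_mul, ← Nat.add_assoc, γ.per, ih]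

/-- two indices at distance `< n` carry different vertices -/
theorem pvg_cyc_ne (γ : T.Cyc) {k l : ℕ} (h1 : k < l) (h2 : l < k + γ.n) : T.src (γ.e k) ≠ T.src (γ.e l) := by
  intro h
  have hn : 0 < γ.n := by have := γ.three; omega
  have e1 : γ.e k = γ.e (k % γ.n) := by
    conv_lhs => rw [← Nat.mod_add_div k γ.n, Nat.mul_comm]
    exact pvg_cyc_per γ _ _
  have e2 : γ.e l = γ.e (l % γ.n) := by
    conv_lhs => rw [← Nat.mod_add_div l γ.n, Nat.mul_comm]
    exact pvg_cyc_per γ _ _
  rw [e1, e2] at h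
  have h3 := γ.inj _ _ (Nat.mod_lt _ hn) (Nat.mod_lt _ hn) h
  have h4 : (l - k) % γ.n = 0 := by
    have : k ≡ l [MOD γ.n] := h3
    exact (Nat.modEq_iff_dvd' h1.le).1 this |> Nat.mod_eq_zero_of_dvd
  rw [Nat.mod_eq_of_lt (by omega)] at h4
  omega

/-- forward propagation along a cycle of colour `c`: the first index after `i` at which the vertex is not on the side `A` carries a point of `X` -/
theorem pvg_first_exit {f : ℕ → V} {P : V → Prop} (hstep : ∀ k, P (f k) → f (k + 1) ∉ X → P (f (k + 1))) {i j : ℕ} (hij : i < j) (hi : P (f i)) (hj : ¬ P (f j)) :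
    ∃ q, i < q ∧ q ≤ j ∧ f q ∈ X ∧ ∀ k, i ≤ k → k < q → P (f k) := by
  classical
  have hex : ∃ q, i < q ∧ ¬ P (f q) := ⟨j, hij, hj⟩
  refine ⟨Nat.find hex, (Nat.find_spec hex).1, Nat.find_min' hex ⟨hij, hj⟩, ?_, ?_⟩
  · have hall : ∀ k, i ≤ k → k < Nat.find hex → P (f k) := by
      intro k h1 h2
      rcases h1.eq_or_lt with rfl | h1
      · exact hi
      · by_contra h3
        exact Nat.find_min hex h2 ⟨h1, h3⟩
    by_contra hX
    have h0 := (Nat.find_spec hex).1
    obtain ⟨m, hm⟩ : ∃ m, Nat.find hex = m + 1 := ⟨Nat.find hex - 1, by omega⟩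
    have := hstep m (hall m (by omega) (by omega)) (by rw [← hm]; exact hX)
    rw [← hm] at this
    exact (Nat.find_spec hex).2 this
  · intro k h1 h2
    rcases h1.eq_or_lt with rfl | h1
    · exact hi
    · by_contra h3
      exact Nat.find_min hex h2 ⟨h1, h3⟩

/-- backward propagation -/
theorem pvg_back {f : ℕ → V} {P : V → Prop} (hstep : ∀ k, P (f (k + 1)) → f k ∉ X → P (f k)) {q j : ℕ} (hj : P (f j)) (hX : ∀ k, q < k → k < j → f k ∉ X) :
    ∀ k, q < k → k ≤ j → P (f k) := by
  intro k h1 h2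
  obtain ⟨m, rfl⟩ : ∃ m, j = k + m := ⟨j - k, by omega⟩
  induction m generalizing k with
  | zero => exact hj
  | succ m ih =>
    refine hstep k (ih (k + 1) (by omega) ?_ ?_ (by omega)) (hX k h1 (by omega))
    · rw [show k + 1 + m = k + (m + 1) by omega]; exact hj
    · intro l a1 a2; exact hX l a1 (by omega)

/-- **PASSAGE** (ordered form): a simple cycle of colour `c` with a vertex inside the gate (index `i`) and a vertex outside (index `j`, `i < j < i + n`) enters through one point of `X`, leaves through the other one,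
and meets `X` nowhere else: between the entry `p` and the exit `q` it is interior to `G`, between `q` and `p + n` it is interior to `Gᶜ` -/
theorem pvg_pass_ord (hT : T.IsSph) (hg : PvgGate T s c I O G X) (γ : T.Cyc) (hγ : ∀ k, s (T.src (γ.e k)) = c) {i j : ℕ} (hij : i < j) (hji : j < i + γ.n)
    (hi : T.src (γ.e i) ∈ T.Int G) (hj : T.src (γ.e j) ∈ T.Int Gᶜ) :
    ∃ p q, p < q ∧ q < p + γ.n ∧ T.src (γ.e p) ∈ X ∧ T.src (γ.e q) ∈ X ∧ T.src (γ.e p) ≠ T.src (γ.e q) ∧ (∀ x ∈ X, x = T.src (γ.e p) ∨ x = T.src (γ.e q)) ∧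
      (∀ k, p < k → k < q → T.src (γ.e k) ∈ T.Int G) ∧ ∀ k, q < k → k < p + γ.n → T.src (γ.e k) ∈ T.Int Gᶜ := by
  classical
  set f : ℕ → V := fun k => T.src (γ.e k) with hf
  have hper : ∀ k, f (k + γ.n) = f k := fun k => by simp only [hf, γ.per]
  have fin : ∀ k, f k ∈ T.Int G → f (k + 1) ∉ X → f (k + 1) ∈ T.Int G := fun k h hX => hg.step_in hT h (pvg_cyc_adj γ k) (hγ _) hX
  have fout : ∀ k, f k ∈ T.Int Gᶜ → f (k + 1) ∉ X → f (k + 1) ∈ T.Int Gᶜ := fun k h hX => hg.step_out hT h (pvg_cyc_adj γ k) (hγ _) hX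
  have bin : ∀ k, f (k + 1) ∈ T.Int G → f k ∉ X → f k ∈ T.Int G := fun k h hX => hg.step_in hT h (T.adj_symm (pvg_cyc_adj γ k)) (hγ _) hX
  have bout : ∀ k, f (k + 1) ∈ T.Int Gᶜ → f k ∉ X → f k ∈ T.Int Gᶜ := fun k h hX => hg.step_out hT h (T.adj_symm (pvg_cyc_adj γ k)) (hγ _) hX
  have hj' : f j ∉ T.Int G := fun h => pvg_int_disj h hj
  obtain ⟨q, q1, q2, q3, q4⟩ := pvg_first_exit (X := X) (f := f) (P := fun v => v ∈ T.Int G) fin hij hi hj'
  have hi' : f (i + γ.n) ∉ T.Int Gᶜ := by rw [hper]; exact pvg_int_disj hi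
  obtain ⟨p, p1, p2, p3, p4⟩ := pvg_first_exit (X := X) (f := f) (P := fun v => v ∈ T.Int Gᶜ) fout hji hj hi'
  have hne : f q ≠ f p := pvg_cyc_ne γ (by omega) (by omega)
  have hX2 : ∀ x ∈ X, x = f p ∨ x = f q := by
    intro x hx
    by_contra hcon
    push Not at hcon
    have h3 : ({x, f p, f q} : Finset V).card = 3 := Finset.card_eq_three.2 ⟨x, f p, f q, hcon.1, hcon.2, hne.symm, rfl⟩
    have h4 : ({x, f p, f q} : Finset V) ⊆ X := by
      intro y hy
      simp only [Finset.mem_insert, Finset.mem_singleton] at hy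
      rcases hy with rfl | rfl | rfl
      · exact hx
      · exact p3
      · exact q3
    have := Finset.card_le_card h4
    have := hg.card
    omega
  have hoff1 : ∀ k, q < k → k < p → f k ∉ X := by
    intro k h1 h2 hk
    rcases hX2 _ hk with h | h
    · exact pvg_cyc_ne γ h2 (by omega) h
    · exact pvg_cyc_ne γ h1 (by omega) h.symm
  have hoff2 : ∀ k, p < k → k < q + γ.n → f k ∉ X := by
    intro k h1 h2 hk
    rcases hX2 _ hk with h | h
    · exact pvg_cyc_ne γ h1 (by omega) h.symm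
    · rw [← hper q] at h
      exact pvg_cyc_ne γ h2 (by omega) h
  have hout : ∀ k, q < k → k < p → f k ∈ T.Int Gᶜ := by
    intro k h1 h2
    by_cases hk : j ≤ k
    · exact p4 k hk h2
    · exact pvg_back (X := X) (f := f) (P := fun v => v ∈ T.Int Gᶜ) bout hj (fun l a1 a2 => hoff1 l a1 (by omega)) k h1 (by omega)
  have hin : ∀ k, p < k → k < q + γ.n → f k ∈ T.Int G := by
    intro k h1 h2
    by_cases hk : i + γ.n ≤ k
    · obtain ⟨m, rfl⟩ : ∃ m, k = m + γ.n := ⟨k - γ.n, by omega⟩
      rw [hper]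
      exact q4 m (by omega) (by omega)
    · have h0 : f (i + γ.n) ∈ T.Int G := by rw [hper]; exact hi
      exact pvg_back (X := X) (f := f) (P := fun v => v ∈ T.Int G) bin h0 (fun l a1 a2 => hoff2 l a1 (by omega)) k h1 (by omega)
  refine ⟨p, q + γ.n, by omega, by omega, p3, by rw [show T.src (γ.e (q + γ.n)) = f (q + γ.n) from rfl, hper]; exact q3, ?_, ?_, hin, ?_⟩
  · rw [show T.src (γ.e (q + γ.n)) = f (q + γ.n) from rfl, hper]; exact hne.symm
  · intro x hx
    rw [show T.src (γ.e (q + γ.n)) = f (q + γ.n) from rfl, hper]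
    exact hX2 x hx
  · intro k h1 h2
    obtain ⟨m, rfl⟩ : ∃ m, k = m + γ.n := ⟨k - γ.n, by omega⟩
    rw [show T.src (γ.e (m + γ.n)) = f (m + γ.n) from rfl, hper]
    exact hout m (by omega) (by omega)

/-- **PASSAGE**: the same for arbitrary indices -/
theorem pvg_pass (hT : T.IsSph) (hg : PvgGate T s c I O G X) (γ : T.Cyc) (hγ : ∀ v ∈ γ.verts, s v = c) {u w : V} (hu : u ∈ γ.verts) (hw : w ∈ γ.verts)
    (hi : u ∈ T.Int G) (hj : w ∈ T.Int Gᶜ) :
    ∃ p q, p < q ∧ q < p + γ.n ∧ T.src (γ.e p) ∈ X ∧ T.src (γ.e q) ∈ X ∧ T.src (γ.e p) ≠ T.src (γ.e q) ∧ (∀ x ∈ X, x = T.src (γ.e p) ∨ x = T.src (γ.e q)) ∧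
      (∀ k, p < k → k < q → T.src (γ.e k) ∈ T.Int G) ∧ ∀ k, q < k → k < p + γ.n → T.src (γ.e k) ∈ T.Int Gᶜ := by
  obtain ⟨i, rfl⟩ := hu
  obtain ⟨j, rfl⟩ := hw
  have hn : 0 < γ.n := by have := γ.three; omega
  set t := (j + i * (γ.n - 1)) % γ.n with ht
  have htn : t < γ.n := Nat.mod_lt _ hn
  have e1 : γ.e (i + t) = γ.e j := by
    have a1 : i + t + ((j + i * (γ.n - 1)) / γ.n) * γ.n = j + i * γ.n := by
      have h1 := Nat.mod_add_div (j + i * (γ.n - 1)) γ.n
      have h2 : i * γ.n = i * (γ.n - 1) + i := by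
        obtain ⟨m, hm⟩ : ∃ m, γ.n = m + 1 := ⟨γ.n - 1, by omega⟩
        rw [hm]; simp [Nat.mul_succ]
      rw [Nat.mul_comm γ.n] at h1
      rw [h2, ht]
      generalize (j + i * (γ.n - 1)) / γ.n * γ.n = a at h1 ⊢
      generalize (j + i * (γ.n - 1)) % γ.n = b at h1 ⊢
      generalize i * (γ.n - 1) = c' at h1 ⊢
      omega
    rw [← pvg_cyc_per γ (i + t) ((j + i * (γ.n - 1)) / γ.n), a1, pvg_cyc_per]
  have ht0 : t ≠ 0 := by
    intro h0
    rw [h0, Nat.add_zero] at e1
    rw [← e1] at hj
    exact pvg_int_disj hi hj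
  exact pvg_pass_ord hT hg γ (fun k => hγ _ ⟨k, rfl⟩) (i := i) (j := i + t) (by omega) (by omega) hi (by rw [e1]; exact hj)

end use

end Claimed.Agent.R289
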