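import Claimed.Agent.R289.Pl.Defs

/-!
# Row 289 (S0537, Cardy for Poisson-Voronoi), box S2 = L4 (strand calculus), file S2/Abs      (head helper237, deputy helper249; prefix `pvs_`, records `Pvs*`)

PROBABILITY HALF of the strand calculus (route v2 of helper241, repaired: `origin/helper237:notes/R289/S2_237.md`), MODEL FREE, no planarity.

* `pvsWin W s₀`   the colourings `V → Bool` which agree with `s₀` off the finite window `W`;  `pvsE`, `pvsP` = expectation / probability for FAIR colours on `W` (quenched law).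
* `pvsMix reg s t`  FRESH COPY: `reg s : V → Option (Fin m)` is the *region map* read off from the explored part of `s` (`none` = explored: keep `s`; `some i` = fresh, region number `i`: take the `i`-th independent copy `t i`).
* `PvsStop reg`   the stopping-set property: `reg (pvsMix reg s t) = reg s`.
* `pvs_fresh`     if `s, t 0, …, t (m-1)` are independent fair colourings, `pvsMix reg s t` is a fair colouring (the swap `(s,t) ↦ (mix, what was overwritten)` is an involution).  No decision tree, no sum over candidate strands.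
* `pvs_lb`, `pvs_ub`   `P(E ∩ Γ) ≥ P(E) ∏ P(G i)`,  `P(E ∩ X) ≤ P(E) P(H)`.
* `pvs_count`     the abstract FIVE-ARM COUNT:  `∑_b ∑_a P(E b a ∩ X b a) ≤ ρ q⁻¹ C_loc E[N]`.
* `pvs_geom`      geometric tail `P(K ≥ j+2) ≤ (1-δ) P(K ≥ j)`  ⟹  `E[K^3] ≤ C(δ)`.
* strands on a dart structure: `PvMap.sstep`, `PvMap.strand`, `PvMap.seen` (lemmas: `S2/Strand.lean`, helper249).
-/

set_option autoImplicit false

namespace Claimed.Agent.R289

open Finset

/-! ## 0. The quenched law on a finite window -/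

section win

variable {V : Type}

open Classical in
/-- the colourings which agree with `s₀` off the finite window `W` -/
noncomputable def pvsWin (W : Finset V) (s₀ : V → Bool) : Finset (V → Bool) :=
  W.powerset.image fun A v => if v ∈ W then decide (v ∈ A) else s₀ v

/-- quenched expectation: fair colours on `W`, the colours `s₀` elsewhere -/
noncomputable def pvsE (W : Finset V) (s₀ : V → Bool) (f : (V → Bool) → ℝ) : ℝ :=
  (∑ s ∈ pvsWin W s₀, f s) / 2 ^ W.card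

/-- quenched probability -/
noncomputable def pvsP (W : Finset V) (s₀ : V → Bool) (A : Set (V → Bool)) : ℝ :=
  pvsE W s₀ (A.indicator fun _ => 1)

/-- the mixed colouring: explored vertices keep `s`, a fresh vertex of region `i` takes the copy `t i` -/
def pvsMix {m : ℕ} (reg : (V → Bool) → V → Option (Fin m)) (s : V → Bool) (t : Fin m → V → Bool) : V → Bool :=
  fun v => match reg s v with
    | none => s v
    | some i => t i v

/-- what the mixing overwrites is stored in the copies -/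
def pvsSwp {m : ℕ} (reg : (V → Bool) → V → Option (Fin m)) (s : V → Bool) (t : Fin m → V → Bool) : Fin m → V → Bool :=
  fun i v => if reg s v = some i then s v else t i v

/-- stopping-set property of a region map -/
def PvsStop {m : ℕ} (reg : (V → Bool) → V → Option (Fin m)) : Prop :=
  ∀ s t, reg (pvsMix reg s t) = reg s

theorem pvs_abs_eqns_cite : True := by
  have := @pvsWin.eq_1; have := @pvsE.eq_1; have := @pvsP.eq_1; have := @pvsMix.eq_1; have := @pvsSwp.eq_1; have := @PvsStop.eq_1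
  trivial

theorem pvs_mem_win {W : Finset V} {s₀ s : V → Bool} : s ∈ pvsWin W s₀ ↔ ∀ v, v ∉ W → s v = s₀ v := by
  classical
  unfold pvsWin
  rw [Finset.mem_image]
  constructor
  · rintro ⟨A, -, rfl⟩ v hv
    simp [hv]
  · intro h
    refine ⟨W.filter fun v => s v = true, Finset.mem_powerset.2 (Finset.filter_subset _ _), ?_⟩
    funext v
    by_cases hv : v ∈ W
    · simp [hv]
    · simp [hv, h v hv]

theorem pvs_card_win (W : Finset V) (s₀ : V → Bool) : (pvsWin W s₀).card = 2 ^ W.card := by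
  classical
  unfold pvsWin
  rw [Finset.card_image_of_injOn, Finset.card_powerset]
  intro A hA B hB hAB
  have hA' : A ⊆ W := Finset.mem_powerset.1 hA
  have hB' : B ⊆ W := Finset.mem_powerset.1 hB
  ext v
  have h := congrFun hAB v
  by_cases hv : v ∈ W
  · simpa [hv] using h
  · exact ⟨fun h1 => absurd (hA' h1) hv, fun h1 => absurd (hB' h1) hv⟩

theorem pvs_mix_mem {m : ℕ} {W : Finset V} {s₀ : V → Bool} (reg : (V → Bool) → V → Option (Fin m)) {s : V → Bool} {t : Fin m → V → Bool}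
    (hs : s ∈ pvsWin W s₀) (ht : ∀ i, t i ∈ pvsWin W s₀) : pvsMix reg s t ∈ pvsWin W s₀ := by
  rw [pvs_mem_win] at hs ⊢
  intro v hv
  unfold pvsMix
  cases h : reg s v with
  | none => exact hs v hv
  | some i => exact (pvs_mem_win.1 (ht i)) v hv

theorem pvs_swp_mem {m : ℕ} {W : Finset V} {s₀ : V → Bool} (reg : (V → Bool) → V → Option (Fin m)) {s : V → Bool} {t : Fin m → V → Bool}
    (hs : s ∈ pvsWin W s₀) (ht : ∀ i, t i ∈ pvsWin W s₀) (i : Fin m) : pvsSwp reg s t i ∈ pvsWin W s₀ := by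
  rw [pvs_mem_win] at hs ⊢
  intro v hv
  unfold pvsSwp
  split_ifs
  · exact hs v hv
  · exact (pvs_mem_win.1 (ht i)) v hv

theorem pvs_mix_none {m : ℕ} {reg : (V → Bool) → V → Option (Fin m)} {s : V → Bool} {t : Fin m → V → Bool} {v : V}
    (h : reg s v = none) : pvsMix reg s t v = s v := by
  unfold pvsMix
  rw [h]

theorem pvs_mix_some {m : ℕ} {reg : (V → Bool) → V → Option (Fin m)} {s : V → Bool} {t : Fin m → V → Bool} {v : V} {i : Fin m}
    (h : reg s v = some i) : pvsMix reg s t v = t i v := by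
  unfold pvsMix
  rw [h]

theorem pvs_swp_pos {m : ℕ} {reg : (V → Bool) → V → Option (Fin m)} {s : V → Bool} {t : Fin m → V → Bool} {v : V} {i : Fin m}
    (h : reg s v = some i) : pvsSwp reg s t i v = s v := by
  unfold pvsSwp
  rw [if_pos h]

theorem pvs_swp_neg {m : ℕ} {reg : (V → Bool) → V → Option (Fin m)} {s : V → Bool} {t : Fin m → V → Bool} {v : V} {i : Fin m}
    (h : reg s v ≠ some i) : pvsSwp reg s t i v = t i v := by
  unfold pvsSwp
  rw [if_neg h]

/-- the swap is an involution (first component) -/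
theorem pvs_mix_mix {m : ℕ} {reg : (V → Bool) → V → Option (Fin m)} (h : PvsStop reg) (s : V → Bool) (t : Fin m → V → Bool) :
    pvsMix reg (pvsMix reg s t) (pvsSwp reg s t) = s := by
  funext v
  have h1 : reg (pvsMix reg s t) v = reg s v := congrFun (h s t) v
  cases h2 : reg s v with
  | none => rw [pvs_mix_none (h1.trans h2), pvs_mix_none h2]
  | some i => rw [pvs_mix_some (h1.trans h2), pvs_swp_pos h2]

/-- the swap is an involution (second component) -/
theorem pvs_swp_swp {m : ℕ} {reg : (V → Bool) → V → Option (Fin m)} (h : PvsStop reg) (s : V → Bool) (t : Fin m → V → Bool) :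
    pvsSwp reg (pvsMix reg s t) (pvsSwp reg s t) = t := by
  funext i v
  have h1 : reg (pvsMix reg s t) v = reg s v := congrFun (h s t) v
  by_cases h2 : reg s v = some i
  · rw [pvs_swp_pos (h1.trans h2), pvs_mix_some h2]
  · rw [pvs_swp_neg (by rw [h1]; exact h2), pvs_swp_neg h2]

/-- **FRESH COPY**: with `s`, `t 0`, …, `t (m-1)` independent and fair, `(pvsMix reg s t, pvsSwp reg s t)` has the same law as `(s, t)`.
Plan: `Finset.sum_nbij'` on `pvsWin ×ˢ piFinset` with `Ψ (s,t) = (pvsMix reg s t, pvsSwp reg s t)` in both directions (`pvs_mix_mix`, `pvs_swp_swp`, `pvs_mix_mem`, `pvs_swp_mem`). -/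
theorem pvs_fresh {m : ℕ} (W : Finset V) (s₀ : V → Bool) {reg : (V → Bool) → V → Option (Fin m)} (h : PvsStop reg)
    (F : (V → Bool) → (Fin m → V → Bool) → ℝ) :
    ∑ s ∈ pvsWin W s₀, ∑ t ∈ Fintype.piFinset (fun _ : Fin m => pvsWin W s₀), F (pvsMix reg s t) (pvsSwp reg s t)
      = ∑ s ∈ pvsWin W s₀, ∑ t ∈ Fintype.piFinset (fun _ : Fin m => pvsWin W s₀), F s t := by
  rw [← Finset.sum_product', ← Finset.sum_product']
  refine Finset.sum_nbij' (fun p => (pvsMix reg p.1 p.2, pvsSwp reg p.1 p.2))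
    (fun p => (pvsMix reg p.1 p.2, pvsSwp reg p.1 p.2)) ?_ ?_ ?_ ?_ ?_
  · rintro ⟨s, t⟩ hp
    simp only [Finset.mem_product, Fintype.mem_piFinset] at hp ⊢
    exact ⟨pvs_mix_mem reg hp.1 hp.2, pvs_swp_mem reg hp.1 hp.2⟩
  · rintro ⟨s, t⟩ hp
    simp only [Finset.mem_product, Fintype.mem_piFinset] at hp ⊢
    exact ⟨pvs_mix_mem reg hp.1 hp.2, pvs_swp_mem reg hp.1 hp.2⟩
  · rintro ⟨s, t⟩ _
    simp only [pvs_mix_mix h, pvs_swp_swp h]
  · rintro ⟨s, t⟩ _
    simp only [pvs_mix_mix h, pvs_swp_swp h]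
  · rintro ⟨s, t⟩ _
    rfl

/-! ### elementary calculus of `pvsE`, `pvsP` -/

theorem pvs_E_mono {W : Finset V} {s₀ : V → Bool} {f g : (V → Bool) → ℝ} (h : ∀ s ∈ pvsWin W s₀, f s ≤ g s) : pvsE W s₀ f ≤ pvsE W s₀ g := by
  unfold pvsE
  exact div_le_div_of_nonneg_right (Finset.sum_le_sum h) (by positivity)

theorem pvs_E_sum {κ : Type} (W : Finset V) (s₀ : V → Bool) (I : Finset κ) (f : κ → (V → Bool) → ℝ) :
    pvsE W s₀ (fun s => ∑ k ∈ I, f k s) = ∑ k ∈ I, pvsE W s₀ (f k) := by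
  unfold pvsE
  rw [Finset.sum_comm, Finset.sum_div]

theorem pvs_E_const_mul (W : Finset V) (s₀ : V → Bool) (c : ℝ) (f : (V → Bool) → ℝ) : pvsE W s₀ (fun s => c * f s) = c * pvsE W s₀ f := by
  unfold pvsE
  rw [← Finset.mul_sum, mul_div_assoc]

theorem pvs_E_const (W : Finset V) (s₀ : V → Bool) (c : ℝ) : pvsE W s₀ (fun _ => c) = c := by
  unfold pvsE
  rw [Finset.sum_const, pvs_card_win, nsmul_eq_mul]
  have : (2 : ℝ) ^ W.card ≠ 0 := by positivity
  push_cast
  field_simp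

theorem pvs_P_nonneg (W : Finset V) (s₀ : V → Bool) (A : Set (V → Bool)) : 0 ≤ pvsP W s₀ A := by
  unfold pvsP pvsE
  refine div_nonneg (Finset.sum_nonneg fun s _ => ?_) (by positivity)
  exact Set.indicator_nonneg (fun _ _ => zero_le_one) s

theorem pvs_P_le_one (W : Finset V) (s₀ : V → Bool) (A : Set (V → Bool)) : pvsP W s₀ A ≤ 1 := by
  have h := pvs_E_mono (W := W) (s₀ := s₀) (f := A.indicator fun _ => (1 : ℝ)) (g := fun _ => 1)
    (fun s _ => Set.indicator_le_self' (fun _ _ => zero_le_one) s)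
  rw [pvs_E_const] at h
  exact h

theorem pvs_P_mono {W : Finset V} {s₀ : V → Bool} {A B : Set (V → Bool)} (h : ∀ s ∈ pvsWin W s₀, s ∈ A → s ∈ B) : pvsP W s₀ A ≤ pvsP W s₀ B := by
  unfold pvsP
  refine pvs_E_mono fun s hs => ?_
  by_cases hA : s ∈ A
  · rw [Set.indicator_of_mem hA, Set.indicator_of_mem (h s hs hA)]
  · rw [Set.indicator_of_notMem hA]
    exact Set.indicator_nonneg (fun _ _ => zero_le_one) s

theorem pvs_P_compl (W : Finset V) (s₀ : V → Bool) (A : Set (V → Bool)) : pvsP W s₀ Aᶜ = 1 - pvsP W s₀ A := by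
  have h1 : pvsE W s₀ (fun _ => (1 : ℝ)) = 1 := pvs_E_const W s₀ 1
  have h2 : pvsP W s₀ Aᶜ + pvsP W s₀ A = pvsE W s₀ (fun _ => (1 : ℝ)) := by
    unfold pvsP pvsE
    rw [← add_div, ← Finset.sum_add_distrib]
    congr 1
    refine Finset.sum_congr rfl fun s _ => ?_
    by_cases hA : s ∈ A
    · rw [Set.indicator_of_mem hA, Set.indicator_of_notMem (by simpa using hA)]; norm_num
    · rw [Set.indicator_of_notMem hA, Set.indicator_of_mem (by simpa using hA)]; norm_num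
  linarith

theorem pvs_P_iUnion_le {κ : Type} [Fintype κ] (W : Finset V) (s₀ : V → Bool) (A : κ → Set (V → Bool)) : pvsP W s₀ (⋃ k, A k) ≤ ∑ k, pvsP W s₀ (A k) := by
  unfold pvsP
  rw [← pvs_E_sum]
  refine pvs_E_mono fun s _ => ?_
  by_cases hs : s ∈ ⋃ k, A k
  · rw [Set.indicator_of_mem hs]
    obtain ⟨k, hk⟩ := Set.mem_iUnion.1 hs
    calc (1 : ℝ) = (A k).indicator (fun _ => (1 : ℝ)) s := (Set.indicator_of_mem hk (fun _ => (1 : ℝ))).symm
      _ ≤ ∑ k, (A k).indicator (fun _ => (1 : ℝ)) s :=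
        Finset.single_le_sum (f := fun k => (A k).indicator (fun _ => (1 : ℝ)) s)
          (fun k _ => Set.indicator_nonneg (fun _ _ => zero_le_one) s) (Finset.mem_univ k)
  · rw [Set.indicator_of_notMem hs]
    exact Finset.sum_nonneg fun k _ => Set.indicator_nonneg (fun _ _ => zero_le_one) s

/-- independence of the colouring and its copies: product formula -/
theorem pvs_prod {m : ℕ} (W : Finset V) (s₀ : V → Bool) (E : Set (V → Bool)) (G : Fin m → Set (V → Bool)) :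
    (∑ s ∈ pvsWin W s₀, ∑ t ∈ Fintype.piFinset (fun _ : Fin m => pvsWin W s₀),
        (E.indicator (fun _ => (1 : ℝ)) s * ∏ i, (G i).indicator (fun _ => (1 : ℝ)) (t i))) / (2 ^ W.card * (2 ^ W.card) ^ m)
      = pvsP W s₀ E * ∏ i, pvsP W s₀ (G i) := by
  have h1 : ∑ s ∈ pvsWin W s₀, ∑ t ∈ Fintype.piFinset (fun _ : Fin m => pvsWin W s₀),
        (E.indicator (fun _ => (1 : ℝ)) s * ∏ i, (G i).indicator (fun _ => (1 : ℝ)) (t i))
      = (∑ s ∈ pvsWin W s₀, E.indicator (fun _ => (1 : ℝ)) s) * ∏ i, ∑ x ∈ pvsWin W s₀, (G i).indicator (fun _ => (1 : ℝ)) x := by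
    rw [Finset.prod_univ_sum, Finset.sum_mul]
    refine Finset.sum_congr rfl fun s _ => ?_
    rw [Finset.mul_sum]
  rw [h1]
  unfold pvsP pvsE
  rw [Finset.prod_div_distrib, Finset.prod_const, Finset.card_univ, Fintype.card_fin, div_mul_div_comm]

/-- a function of the colouring alone, averaged over the copies as well -/
theorem pvs_avg_copies {m : ℕ} (W : Finset V) (s₀ : V → Bool) (f : (V → Bool) → ℝ) :
    (∑ s ∈ pvsWin W s₀, ∑ _t ∈ Fintype.piFinset (fun _ : Fin m => pvsWin W s₀), f s) / (2 ^ W.card * (2 ^ W.card) ^ m) = pvsE W s₀ f := by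
  have hc : ((Fintype.piFinset (fun _ : Fin m => pvsWin W s₀)).card : ℝ) = (2 ^ W.card) ^ m := by
    rw [Fintype.card_piFinset, Finset.prod_const, Finset.card_univ, Fintype.card_fin, pvs_card_win]
    push_cast
    rfl
  have h1 : ∑ s ∈ pvsWin W s₀, ∑ _t ∈ Fintype.piFinset (fun _ : Fin m => pvsWin W s₀), f s
      = (∑ s ∈ pvsWin W s₀, f s) * (2 ^ W.card) ^ m := by
    rw [Finset.sum_mul]
    refine Finset.sum_congr rfl fun s _ => ?_
    rw [Finset.sum_const, nsmul_eq_mul, hc, mul_comm]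
  rw [h1]
  unfold pvsE
  have h2 : ((2 : ℝ) ^ W.card) ^ m ≠ 0 := by positivity
  rw [mul_div_mul_right _ _ h2]

/-- the average over `(s, t)` of a function of the mixed colouring is its quenched expectation -/
theorem pvs_avg_mix {m : ℕ} (W : Finset V) (s₀ : V → Bool) {reg : (V → Bool) → V → Option (Fin m)} (hreg : PvsStop reg)
    (f : (V → Bool) → ℝ) :
    (∑ s ∈ pvsWin W s₀, ∑ t ∈ Fintype.piFinset (fun _ : Fin m => pvsWin W s₀), f (pvsMix reg s t)) / (2 ^ W.card * (2 ^ W.card) ^ m)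
      = pvsE W s₀ f := by
  rw [pvs_fresh W s₀ hreg (fun s _ => f s), pvs_avg_copies]

/-- **lower bound by the fresh copy**: `E` is read off from the explored part; good copies force `Γ`.
Plan: `P(E ∩ Γ)` = average over `(s,t)` of `1_{E ∩ Γ}(mix s t)` (`pvs_fresh`, `pvs_avg_copies`) `= 1_E(s) 1_Γ(mix s t) ≥ 1_E(s) ∏ 1_{G i}(t i)`; `pvs_prod`. -/
theorem pvs_lb {m : ℕ} (W : Finset V) (s₀ : V → Bool) {reg : (V → Bool) → V → Option (Fin m)} (hreg : PvsStop reg)
    (E Γ : Set (V → Bool)) (G : Fin m → Set (V → Bool))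
    (hE : ∀ s t, pvsMix reg s t ∈ E ↔ s ∈ E)
    (hΓ : ∀ s ∈ pvsWin W s₀, s ∈ E → ∀ t : Fin m → V → Bool, (∀ i, t i ∈ pvsWin W s₀) → (∀ i, t i ∈ G i) → pvsMix reg s t ∈ Γ) :
    pvsP W s₀ E * ∏ i, pvsP W s₀ (G i) ≤ pvsP W s₀ (E ∩ Γ) := by
  rw [← pvs_prod, pvsP, ← pvs_avg_mix W s₀ hreg]
  refine div_le_div_of_nonneg_right ?_ (by positivity)
  refine Finset.sum_le_sum fun s hs => Finset.sum_le_sum fun t ht => ?_
  rw [Fintype.mem_piFinset] at ht
  by_cases h1 : s ∈ E ∧ ∀ i, t i ∈ G i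
  · have h2 : pvsMix reg s t ∈ E ∩ Γ := ⟨(hE s t).2 h1.1, hΓ s hs h1.1 t ht h1.2⟩
    rw [Set.indicator_of_mem h2, Set.indicator_of_mem h1.1, one_mul]
    refine le_of_eq (Finset.prod_eq_one fun i _ => Set.indicator_of_mem (h1.2 i) _)
  · have h3 : E.indicator (fun _ => (1 : ℝ)) s * ∏ i, (G i).indicator (fun _ => (1 : ℝ)) (t i) = 0 := by
      by_cases hsE : s ∈ E
      · have : ∃ i, t i ∉ G i := by
          by_contra hcon
          push Not at hcon
          exact h1 ⟨hsE, hcon⟩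
        obtain ⟨i, hi⟩ := this
        rw [Finset.prod_eq_zero (Finset.mem_univ i) (Set.indicator_of_notMem hi _), mul_zero]
      · rw [Set.indicator_of_notMem hsE, zero_mul]
    rw [h3]
    exact Set.indicator_nonneg (fun _ _ => zero_le_one) _

theorem pvs_P_univ (W : Finset V) (s₀ : V → Bool) : pvsP W s₀ Set.univ = 1 := by
  rw [pvsP, Set.indicator_univ, pvs_E_const]

/-- **upper bound by the fresh copy**: on `E`, the event `X` for the mixed colouring forces `H` for the copy number `j` -/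
theorem pvs_ub {m : ℕ} (W : Finset V) (s₀ : V → Bool) {reg : (V → Bool) → V → Option (Fin m)} (hreg : PvsStop reg)
    (E X H : Set (V → Bool)) (j : Fin m)
    (hE : ∀ s t, pvsMix reg s t ∈ E ↔ s ∈ E)
    (hX : ∀ s ∈ pvsWin W s₀, s ∈ E → ∀ t : Fin m → V → Bool, (∀ i, t i ∈ pvsWin W s₀) → pvsMix reg s t ∈ X → t j ∈ H) :
    pvsP W s₀ (E ∩ X) ≤ pvsP W s₀ E * pvsP W s₀ H := by
  have hG : ∏ i, pvsP W s₀ (if i = j then H else Set.univ) = pvsP W s₀ H := by
    rw [Finset.prod_eq_single j]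
    · rw [if_pos rfl]
    · intro i _ hij
      rw [if_neg hij, pvs_P_univ]
    · intro hj
      exact absurd (Finset.mem_univ j) hj
  rw [← hG, ← pvs_prod, pvsP, ← pvs_avg_mix W s₀ hreg]
  refine div_le_div_of_nonneg_right ?_ (by positivity)
  refine Finset.sum_le_sum fun s hs => Finset.sum_le_sum fun t ht => ?_
  rw [Fintype.mem_piFinset] at ht
  have hp : ∏ i, (if i = j then H else Set.univ).indicator (fun _ => (1 : ℝ)) (t i) = H.indicator (fun _ => (1 : ℝ)) (t j) := by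
    rw [Finset.prod_eq_single j]
    · rw [if_pos rfl]
    · intro i _ hij
      rw [if_neg hij, Set.indicator_univ]
    · intro hj
      exact absurd (Finset.mem_univ j) hj
  rw [hp]
  by_cases h1 : pvsMix reg s t ∈ E ∩ X
  · have hsE : s ∈ E := (hE s t).1 h1.1
    rw [Set.indicator_of_mem h1, Set.indicator_of_mem hsE, Set.indicator_of_mem (hX s hs hsE t ht h1.2), one_mul]
  · rw [Set.indicator_of_notMem h1]
    exact mul_nonneg (Set.indicator_nonneg (fun _ _ => zero_le_one) _) (Set.indicator_nonneg (fun _ _ => zero_le_one) _)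

/-- **ABSTRACT FIVE-ARM COUNT** (boxes `b : ι`, markers `a : τ` = triples of boundary strands).
`E b a` explored event, `Γ b a` local hooking (forced by good copies `G b i`, total cost `q`), `X b a` one more fresh arm (forces `H b` for the copy `j`, cost `ρ`),
`hN`: for a fixed colouring the events `E b a ∩ Γ b a` happen for at most `Cl * N s` pairs `(a, b)` (b-independent marker). -/
theorem pvs_count {ι τ : Type} [Fintype ι] [Fintype τ] {m : ℕ} (W : Finset V) (s₀ : V → Bool)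
    (reg : ι → τ → (V → Bool) → V → Option (Fin m)) (hreg : ∀ b a, PvsStop (reg b a))
    (E Γ X : ι → τ → Set (V → Bool)) (G : ι → Fin m → Set (V → Bool)) (H : ι → Set (V → Bool)) (j : Fin m)
    (hE : ∀ b a s t, pvsMix (reg b a) s t ∈ E b a ↔ s ∈ E b a)
    (hΓ : ∀ b a, ∀ s ∈ pvsWin W s₀, s ∈ E b a → ∀ t : Fin m → V → Bool, (∀ i, t i ∈ pvsWin W s₀) → (∀ i, t i ∈ G b i) → pvsMix (reg b a) s t ∈ Γ b a)
    (hX : ∀ b a, ∀ s ∈ pvsWin W s₀, s ∈ E b a → ∀ t : Fin m → V → Bool, (∀ i, t i ∈ pvsWin W s₀) → pvsMix (reg b a) s t ∈ X b a → t j ∈ H b)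
    (q ρ Cl : ℝ) (hq : 0 < q) (hρ : 0 ≤ ρ) (hG : ∀ b, q ≤ ∏ i, pvsP W s₀ (G b i)) (hH : ∀ b, pvsP W s₀ (H b) ≤ ρ)
    (N : (V → Bool) → ℝ)
    (hN : ∀ s ∈ pvsWin W s₀, ∑ b, ∑ a, (E b a ∩ Γ b a).indicator (fun _ => (1 : ℝ)) s ≤ Cl * N s) :
    ∑ b, ∑ a, pvsP W s₀ (E b a ∩ X b a) ≤ ρ * q⁻¹ * (Cl * pvsE W s₀ N) := by
  have h1 : ∀ b a, pvsP W s₀ (E b a ∩ X b a) ≤ ρ * q⁻¹ * pvsP W s₀ (E b a ∩ Γ b a) := by
    intro b a
    have hub := pvs_ub W s₀ (hreg b a) (E b a) (X b a) (H b) j (hE b a) (hX b a)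
    have hlb := pvs_lb W s₀ (hreg b a) (E b a) (Γ b a) (G b) (hE b a) (hΓ b a)
    have hE0 := pvs_P_nonneg W s₀ (E b a)
    have h2 : pvsP W s₀ (E b a) * q ≤ pvsP W s₀ (E b a ∩ Γ b a) := le_trans (mul_le_mul_of_nonneg_left (hG b) hE0) hlb
    have h3 : pvsP W s₀ (E b a) ≤ q⁻¹ * pvsP W s₀ (E b a ∩ Γ b a) := by
      rw [← div_eq_inv_mul, le_div_iff₀ hq]; exact h2
    calc pvsP W s₀ (E b a ∩ X b a) ≤ pvsP W s₀ (E b a) * pvsP W s₀ (H b) := hub
      _ ≤ pvsP W s₀ (E b a) * ρ := mul_le_mul_of_nonneg_left (hH b) hE0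
      _ ≤ (q⁻¹ * pvsP W s₀ (E b a ∩ Γ b a)) * ρ := mul_le_mul_of_nonneg_right h3 hρ
      _ = ρ * q⁻¹ * pvsP W s₀ (E b a ∩ Γ b a) := by ring
  have h4 : ∑ b, ∑ a, pvsP W s₀ (E b a ∩ Γ b a) ≤ Cl * pvsE W s₀ N := by
    have e1 : ∑ b, ∑ a, pvsP W s₀ (E b a ∩ Γ b a) = pvsE W s₀ (fun s => ∑ b, ∑ a, (E b a ∩ Γ b a).indicator (fun _ => (1 : ℝ)) s) := by
      rw [pvs_E_sum]
      refine Finset.sum_congr rfl fun b _ => ?_
      rw [pvs_E_sum]
      rfl
    rw [e1, ← pvs_E_const_mul]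
    exact pvs_E_mono hN
  have hc : 0 ≤ ρ * q⁻¹ := mul_nonneg hρ (inv_nonneg.2 hq.le)
  calc ∑ b, ∑ a, pvsP W s₀ (E b a ∩ X b a) ≤ ∑ b, ∑ a, ρ * q⁻¹ * pvsP W s₀ (E b a ∩ Γ b a) :=
        Finset.sum_le_sum fun b _ => Finset.sum_le_sum fun a _ => h1 b a
    _ = ρ * q⁻¹ * ∑ b, ∑ a, pvsP W s₀ (E b a ∩ Γ b a) := by
        rw [Finset.mul_sum]; refine Finset.sum_congr rfl fun b _ => ?_; rw [Finset.mul_sum]
    _ ≤ ρ * q⁻¹ * (Cl * pvsE W s₀ N) := mul_le_mul_of_nonneg_left h4 hc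

/-- **geometric tail ⟹ third moment**, with a constant which depends on `δ` only.
Plan: `P(K ≥ 2 i) ≤ (1-δ)^i` by induction; `K^3 = ∑_{k < K} ((k+1)^3 - k^3) ≤ ∑_k 3 (k+1)^2 1_{K ≥ k+1}` (finite: `K ≤ B` on the finite window); `C := ∑' k, 3 (k+1)^2 (1-δ)^(k/2)` (summable: ratio test / `summable_pow_mul_geometric_of_norm_lt_one` on even and odd `k`). -/
theorem pvs_geom (δ : ℝ) (hδ : 0 < δ) (hδ1 : δ ≤ 1) : ∃ C : ℝ, 0 ≤ C ∧ ∀ (V : Type) (W : Finset V) (s₀ : V → Bool) (K : (V → Bool) → ℕ),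
    (∀ j : ℕ, pvsP W s₀ {s | j + 2 ≤ K s} ≤ (1 - δ) * pvsP W s₀ {s | j ≤ K s}) → pvsE W s₀ (fun s => (K s : ℝ) ^ 3) ≤ C := by
  set r : ℝ := 1 - δ with hr
  have hr0 : 0 ≤ r := by linarith
  have hr1 : r < 1 := by linarith
  set ρ : ℝ := Real.sqrt r with hρ
  have hρ0 : 0 ≤ ρ := Real.sqrt_nonneg r
  have hρ2 : ρ ^ 2 = r := Real.sq_sqrt hr0
  have hρ1 : ρ < 1 := by
    by_contra hcon
    have h1 : (1 : ℝ) ≤ ρ := not_lt.1 hcon
    have h2 : (1 : ℝ) ≤ ρ ^ 2 := one_le_pow₀ h1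
    linarith
  have hnorm : ‖ρ‖ < 1 := by rw [Real.norm_of_nonneg hρ0]; exact hρ1
  have hsum : Summable (fun k : ℕ => (3 * ((k : ℝ) ^ 2 * ρ ^ k) + 3 * ((k : ℝ) ^ 1 * ρ ^ k)) + (k : ℝ) ^ 0 * ρ ^ k) :=
    (((summable_pow_mul_geometric_of_norm_lt_one 2 hnorm).mul_left 3).add
      ((summable_pow_mul_geometric_of_norm_lt_one 1 hnorm).mul_left 3)).add
      (summable_pow_mul_geometric_of_norm_lt_one 0 hnorm)
  have hf0 : ∀ k : ℕ, 0 ≤ (3 * ((k : ℝ) ^ 2 * ρ ^ k) + 3 * ((k : ℝ) ^ 1 * ρ ^ k)) + (k : ℝ) ^ 0 * ρ ^ k := fun k => by positivity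
  refine ⟨∑' k : ℕ, ((3 * ((k : ℝ) ^ 2 * ρ ^ k) + 3 * ((k : ℝ) ^ 1 * ρ ^ k)) + (k : ℝ) ^ 0 * ρ ^ k), tsum_nonneg hf0, ?_⟩
  intro V W s₀ K hK
  have ht : ∀ i : ℕ, pvsP W s₀ {s | 2 * i ≤ K s} ≤ r ^ i := by
    intro i
    induction i with
    | zero => simpa using pvs_P_le_one W s₀ {s | 2 * 0 ≤ K s}
    | succ i ih =>
      calc pvsP W s₀ {s | 2 * (i + 1) ≤ K s} = pvsP W s₀ {s | 2 * i + 2 ≤ K s} := rfl
        _ ≤ r * pvsP W s₀ {s | 2 * i ≤ K s} := hK (2 * i)
        _ ≤ r * r ^ i := mul_le_mul_of_nonneg_left ih hr0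
        _ = r ^ (i + 1) := by ring
  have ht2 : ∀ k : ℕ, pvsP W s₀ {s | k + 1 ≤ K s} ≤ ρ ^ k := by
    intro k
    have h1 : pvsP W s₀ {s | k + 1 ≤ K s} ≤ pvsP W s₀ {s | 2 * ((k + 1) / 2) ≤ K s} :=
      pvs_P_mono fun s _ hs => le_trans (Nat.mul_div_le (k + 1) 2) hs
    have h2 : r ^ ((k + 1) / 2) = ρ ^ (2 * ((k + 1) / 2)) := by rw [pow_mul, hρ2]
    have h3 : ρ ^ (2 * ((k + 1) / 2)) ≤ ρ ^ k := pow_le_pow_of_le_one hρ0 hρ1.le (by omega)
    linarith [ht ((k + 1) / 2)]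
  obtain ⟨B, hB⟩ : ∃ B : ℕ, ∀ s ∈ pvsWin W s₀, K s ≤ B := ⟨(pvsWin W s₀).sup K, fun s hs => Finset.le_sup hs⟩
  have hcube : ∀ n : ℕ, ∑ k ∈ Finset.range n, (3 * (k : ℝ) ^ 2 + 3 * (k : ℝ) + 1) = (n : ℝ) ^ 3 := by
    intro n
    induction n with
    | zero => simp
    | succ n ih => rw [Finset.sum_range_succ, ih]; push_cast; ring
  have hid : ∀ s ∈ pvsWin W s₀, (K s : ℝ) ^ 3
      ≤ ∑ k ∈ Finset.range B, (3 * (k : ℝ) ^ 2 + 3 * (k : ℝ) + 1) * ({s | k + 1 ≤ K s} : Set (V → Bool)).indicator (fun _ => (1 : ℝ)) s := by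
    intro s hs
    rw [← hcube (K s)]
    have hsub : Finset.range (K s) ⊆ Finset.range B := Finset.range_subset_range.2 (hB s hs)
    calc ∑ k ∈ Finset.range (K s), (3 * (k : ℝ) ^ 2 + 3 * (k : ℝ) + 1)
        = ∑ k ∈ Finset.range (K s), (3 * (k : ℝ) ^ 2 + 3 * (k : ℝ) + 1) * ({s | k + 1 ≤ K s} : Set (V → Bool)).indicator (fun _ => (1 : ℝ)) s := by
          refine Finset.sum_congr rfl fun k hk => ?_
          have hk' : s ∈ ({s | k + 1 ≤ K s} : Set (V → Bool)) := Finset.mem_range.1 hk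
          rw [Set.indicator_of_mem hk', mul_one]
      _ ≤ _ := Finset.sum_le_sum_of_subset_of_nonneg hsub fun k _ _ =>
          mul_nonneg (by positivity) (Set.indicator_nonneg (fun _ _ => zero_le_one) s)
  calc pvsE W s₀ (fun s => (K s : ℝ) ^ 3)
      ≤ pvsE W s₀ (fun s => ∑ k ∈ Finset.range B, (3 * (k : ℝ) ^ 2 + 3 * (k : ℝ) + 1) * ({s | k + 1 ≤ K s} : Set (V → Bool)).indicator (fun _ => (1 : ℝ)) s) :=
        pvs_E_mono hid
    _ = ∑ k ∈ Finset.range B, (3 * (k : ℝ) ^ 2 + 3 * (k : ℝ) + 1) * pvsP W s₀ {s | k + 1 ≤ K s} := by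
        rw [pvs_E_sum]
        refine Finset.sum_congr rfl fun k _ => ?_
        rw [pvs_E_const_mul]
        rfl
    _ ≤ ∑ k ∈ Finset.range B, ((3 * ((k : ℝ) ^ 2 * ρ ^ k) + 3 * ((k : ℝ) ^ 1 * ρ ^ k)) + (k : ℝ) ^ 0 * ρ ^ k) := by
        refine Finset.sum_le_sum fun k _ => ?_
        have h1 : (3 * (k : ℝ) ^ 2 + 3 * (k : ℝ) + 1) * pvsP W s₀ {s | k + 1 ≤ K s} ≤ (3 * (k : ℝ) ^ 2 + 3 * (k : ℝ) + 1) * ρ ^ k :=
          mul_le_mul_of_nonneg_left (ht2 k) (by positivity)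
        have h2 : (3 * (k : ℝ) ^ 2 + 3 * (k : ℝ) + 1) * ρ ^ k = (3 * ((k : ℝ) ^ 2 * ρ ^ k) + 3 * ((k : ℝ) ^ 1 * ρ ^ k)) + (k : ℝ) ^ 0 * ρ ^ k := by ring
        linarith
    _ ≤ _ := hsum.sum_le_tsum _ fun k _ => hf0 k

end win

/-! ## 1. Strands on a dart structure      (lemmas: `S2/Strand.lean`, helper249)

Convention: the strand crosses the edge of the dart `d` from the RIGHT of `d` to its LEFT, i.e. it enters the face of `d`.  Walking so, `src d` is on the left hand and `tgt d` on the right hand.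
`sstep` leaves the face of `d` through its other bichromatic side; the colour of the left hand (`src`) and of the right hand (`tgt`) never change. -/

namespace PvMap

variable {V D : Type} (T : PvMap V D)

/-- one step of the disagreement strand -/
def sstep (s : V → Bool) (d : D) : D := if s (T.apex d) = s (T.src d) then T.opp (T.nxt d) else T.opp (T.nxt (T.nxt d))

/-- the strand started at the dart `e` -/
def strand (s : V → Bool) (e : D) (k : ℕ) : D := (T.sstep s)^[k] e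

/-- the vertices whose colour is read by the darts number `0, …, n` of the strand -/
def seen (s : V → Bool) (e : D) (n : ℕ) : Set V := {v | ∃ k ≤ n, v = T.src (T.strand s e k) ∨ v = T.tgt (T.strand s e k)}

/-- left layer (colour of `src e`) and right layer (colour of `tgt e`) of the first `n` darts -/
def layL (s : V → Bool) (e : D) (n : ℕ) : Set V := {v | ∃ k ≤ n, v = T.src (T.strand s e k)}
def layR (s : V → Bool) (e : D) (n : ℕ) : Set V := {v | ∃ k ≤ n, v = T.tgt (T.strand s e k)}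

/-- `n` is the first time at which the strand from `e` reads a vertex of `Z`; up to that time it stays in the face set `A` -/
def Hits (s : V → Bool) (e : D) (A : Set D) (Z : Set V) (n : ℕ) : Prop :=
  (T.src (T.strand s e n) ∈ Z ∨ T.tgt (T.strand s e n) ∈ Z) ∧ (∀ k < n, T.src (T.strand s e k) ∉ Z ∧ T.tgt (T.strand s e k) ∉ Z) ∧ ∀ k ≤ n, T.strand s e k ∈ A

theorem pvs_strand_eqns_cite : True := by
  have := @sstep.eq_1; have := @strand.eq_1; have := @seen.eq_1; have := @layL.eq_1; have := @layR.eq_1; have := @Hits.eq_1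
  trivial

end PvMap

end Claimed.Agent.R289
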